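import Mathlib

set_option autoImplicit false
open MeasureTheory
open scoped ENNReal

namespace Crest.Agent.S0359


theorem rpow_add_lt_add_rpow {x y r : ℝ} (hx : 0 < x) (hy : 0 < y) (hr : 1 < r) :
    x ^ r + y ^ r < (x + y) ^ r := by
  have hxy : 0 < x + y := by positivity
  have h1 : x ^ (r - 1) < (x + y) ^ (r - 1) :=
    Real.rpow_lt_rpow hx.le (by linarith) (by linarith)
  have h2 : y ^ (r - 1) < (x + y) ^ (r - 1) :=
    Real.rpow_lt_rpow hy.le (by linarith) (by linarith)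
  have e1 : x ^ r = x * x ^ (r - 1) := by
    rw [Real.rpow_sub_one hx.ne']; field_simp
  have e2 : y ^ r = y * y ^ (r - 1) := by
    rw [Real.rpow_sub_one hy.ne']; field_simp
  have e3 : (x + y) ^ r = (x + y) * (x + y) ^ (r - 1) := by
    rw [Real.rpow_sub_one hxy.ne']; field_simp
  rw [e1, e2, e3]
  nlinarith [mul_lt_mul_of_pos_left h1 hx, mul_lt_mul_of_pos_left h2 hy]

theorem add_rpow_lt_rpow_add {x y r : ℝ} (hx : 0 < x) (hy : 0 < y) (hr1 : r < 1) :
    (x + y) ^ r < x ^ r + y ^ r := by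
  have hxy : 0 < x + y := by positivity
  have h1 : (x + y) ^ (r - 1) < x ^ (r - 1) :=
    Real.rpow_lt_rpow_of_neg hx (by linarith) (by linarith)
  have h2 : (x + y) ^ (r - 1) < y ^ (r - 1) :=
    Real.rpow_lt_rpow_of_neg hy (by linarith) (by linarith)
  have e1 : x ^ r = x * x ^ (r - 1) := by
    rw [Real.rpow_sub_one hx.ne']; field_simp
  have e2 : y ^ r = y * y ^ (r - 1) := by
    rw [Real.rpow_sub_one hy.ne']; field_simp
  have e3 : (x + y) ^ r = (x + y) * (x + y) ^ (r - 1) := by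
    rw [Real.rpow_sub_one hxy.ne']; field_simp
  rw [e1, e2, e3]
  nlinarith [mul_lt_mul_of_pos_left h1 hx, mul_lt_mul_of_pos_left h2 hy]

theorem sq_rpow_half (a : ℝ) (q : ℝ) : (a ^ 2) ^ (q / 2) = |a| ^ q := by
  rw [← sq_abs a, ← Real.rpow_natCast, ← Real.rpow_mul (abs_nonneg a)]
  congr 1
  push_cast
  ring

/-- Clarkson-type scalar inequality, exponent above 2. -/
theorem clarkson_gt {q : ℝ} (hq : 2 < q) (a b : ℝ) :
    2 * |a| ^ q + 2 * |b| ^ q ≤ |a + b| ^ q + |a - b| ^ q ∧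
    (2 * |a| ^ q + 2 * |b| ^ q = |a + b| ^ q + |a - b| ^ q → a = 0 ∨ b = 0) := by
  have hr : 1 < q / 2 := by linarith
  have hu : (0:ℝ) ≤ (a + b) ^ 2 := sq_nonneg _
  have hv : (0:ℝ) ≤ (a - b) ^ 2 := sq_nonneg _
  have hx : (0:ℝ) ≤ a ^ 2 := sq_nonneg _
  have hy : (0:ℝ) ≤ b ^ 2 := sq_nonneg _
  have hconv := (convexOn_rpow hr.le).2 (Set.mem_Ici.2 hu) (Set.mem_Ici.2 hv)
    (by norm_num : (0:ℝ) ≤ 1 / 2) (by norm_num : (0:ℝ) ≤ 1 / 2) (by norm_num : (1:ℝ) / 2 + 1 / 2 = 1)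
  simp only [smul_eq_mul] at hconv
  have hsum : (1:ℝ) / 2 * (a + b) ^ 2 + 1 / 2 * (a - b) ^ 2 = a ^ 2 + b ^ 2 := by ring
  rw [hsum] at hconv
  have hsup := Real.add_rpow_le_rpow_add hx hy hr.le
  rw [sq_rpow_half, sq_rpow_half] at hconv
  rw [sq_rpow_half, sq_rpow_half] at hsup
  refine ⟨by linarith, ?_⟩
  intro heq
  by_contra hne
  rw [not_or] at hne
  have hx' : (0:ℝ) < a ^ 2 := by
    have := hne.1
    positivity
  have hy' : (0:ℝ) < b ^ 2 := by
    have := hne.2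
    positivity
  have hstrict := rpow_add_lt_add_rpow hx' hy' hr
  rw [sq_rpow_half, sq_rpow_half] at hstrict
  linarith

/-- Clarkson-type scalar inequality, exponent below 2. -/
theorem clarkson_lt {q : ℝ} (hq0 : 0 < q) (hq : q < 2) (a b : ℝ) :
    |a + b| ^ q + |a - b| ^ q ≤ 2 * |a| ^ q + 2 * |b| ^ q ∧
    (2 * |a| ^ q + 2 * |b| ^ q = |a + b| ^ q + |a - b| ^ q → a = 0 ∨ b = 0) := by
  have hr : q / 2 < 1 := by linarith
  have hr0 : 0 < q / 2 := by linarith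
  have hu : (0:ℝ) ≤ (a + b) ^ 2 := sq_nonneg _
  have hv : (0:ℝ) ≤ (a - b) ^ 2 := sq_nonneg _
  have hx : (0:ℝ) ≤ a ^ 2 := sq_nonneg _
  have hy : (0:ℝ) ≤ b ^ 2 := sq_nonneg _
  have hconc := (Real.concaveOn_rpow hr0.le hr.le).2 (Set.mem_Ici.2 hu) (Set.mem_Ici.2 hv)
    (by norm_num : (0:ℝ) ≤ 1 / 2) (by norm_num : (0:ℝ) ≤ 1 / 2) (by norm_num : (1:ℝ) / 2 + 1 / 2 = 1)
  simp only [smul_eq_mul] at hconc
  have hsum : (1:ℝ) / 2 * (a + b) ^ 2 + 1 / 2 * (a - b) ^ 2 = a ^ 2 + b ^ 2 := by ring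
  rw [hsum] at hconc
  have hsub := Real.rpow_add_le_add_rpow hx hy hr0.le hr.le
  rw [sq_rpow_half, sq_rpow_half] at hconc
  rw [sq_rpow_half, sq_rpow_half] at hsub
  refine ⟨by linarith, ?_⟩
  intro heq
  by_contra hne
  rw [not_or] at hne
  have hx' : (0:ℝ) < a ^ 2 := by
    have := hne.1
    positivity
  have hy' : (0:ℝ) < b ^ 2 := by
    have := hne.2
    positivity
  have hstrict := add_rpow_lt_rpow_add hx' hy' hr
  rw [sq_rpow_half, sq_rpow_half] at hstrict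
  linarith

/-- scalar midpoint inequality with its equality case. -/
theorem midpoint_scalar {q : ℝ} (hq : 1 < q) (a b : ℝ) :
    |a - b| ^ q ≤ 2 ^ (q - 1) * (|a| ^ q + |b| ^ q) ∧
    (|a - b| ^ q = 2 ^ (q - 1) * (|a| ^ q + |b| ^ q) → b = -a) := by
  have hq0 : 0 < q := by linarith
  have hx : (0:ℝ) ≤ |a| := abs_nonneg a
  have hy : (0:ℝ) ≤ |b| := abs_nonneg b
  have htri : |a - b| ≤ |a| + |b| := abs_sub a b
  have h1 : |a - b| ^ q ≤ (|a| + |b|) ^ q :=
    Real.rpow_le_rpow (abs_nonneg _) htri hq0.le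
  have hconv := (convexOn_rpow hq.le).2 (Set.mem_Ici.2 hx) (Set.mem_Ici.2 hy)
    (by norm_num : (0:ℝ) ≤ 1 / 2) (by norm_num : (0:ℝ) ≤ 1 / 2) (by norm_num : (1:ℝ) / 2 + 1 / 2 = 1)
  simp only [smul_eq_mul] at hconv
  have h2q : (2:ℝ) ^ q = 2 * 2 ^ (q - 1) := by
    rw [Real.rpow_sub_one (by norm_num : (2:ℝ) ≠ 0)]; field_simp
  have hpos : (0:ℝ) < 2 ^ (q - 1) := by positivity
  have hsplit : (|a| + |b|) ^ q = 2 ^ q * ((1:ℝ) / 2 * |a| + 1 / 2 * |b|) ^ q := by
    rw [← Real.mul_rpow (by norm_num) (by positivity)]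
    congr 1; ring
  have h3 : (|a| + |b|) ^ q ≤ 2 ^ (q - 1) * (|a| ^ q + |b| ^ q) := by
    rw [hsplit, h2q]
    nlinarith
  refine ⟨le_trans h1 h3, ?_⟩
  intro heq
  -- both inequalities are equalities
  have e1 : |a - b| ^ q = (|a| + |b|) ^ q := le_antisymm h1 (by rw [heq]; exact h3)
  have e3 : (|a| + |b|) ^ q = 2 ^ (q - 1) * (|a| ^ q + |b| ^ q) := by rw [← e1, heq]
  have habs : |a| = |b| := by
    by_contra hne
    have hstr := (strictConvexOn_rpow hq).2 (Set.mem_Ici.2 hx) (Set.mem_Ici.2 hy) hne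
      (by norm_num : (0:ℝ) < 1 / 2) (by norm_num : (0:ℝ) < 1 / 2) (by norm_num : (1:ℝ) / 2 + 1 / 2 = 1)
    simp only [smul_eq_mul] at hstr
    rw [hsplit, h2q] at e3
    nlinarith
  have hsum : |a - b| = |a| + |b| := by
    by_contra hne
    have hlt : |a - b| < |a| + |b| := lt_of_le_of_ne htri hne
    have := Real.rpow_lt_rpow (abs_nonneg _) hlt hq0
    linarith
  rcases abs_eq_abs.1 habs with h | h
  · -- a = b
    subst h
    simp at hsum
    have : |a| = 0 := by linarith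
    have ha : a = 0 := abs_eq_zero.1 this
    simp [ha]
  · rw [h]; ring



section vec
variable {p : ℝ≥0∞} [Fact (1 ≤ p)] {d : ℕ}
set_option linter.unusedSectionVars false

theorem pilp_norm_rpow (hp : 0 < p.toReal) (f : PiLp p (fun _ : Fin d => ℝ)) :
    ‖f‖ ^ p.toReal = ∑ i, |f i| ^ p.toReal := by
  rw [PiLp.norm_eq_sum hp f]
  rw [← Real.rpow_mul (by positivity)]
  rw [one_div, inv_mul_cancel₀ hp.ne', Real.rpow_one]
  rfl

/-- V1: uniqueness of the metric midpoint (here in the form: the reflection). -/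
theorem pilp_neg_of_norm (hp : 1 < p.toReal) (A A' : PiLp p (fun _ : Fin d => ℝ)) (r : ℝ)
    (h1 : ‖A‖ = r) (h2 : ‖A'‖ = r) (h3 : ‖A - A'‖ = 2 * r) : A' = -A := by
  have hp0 : 0 < p.toReal := by linarith
  have hr : 0 ≤ r := h1 ▸ norm_nonneg A
  have e1 := pilp_norm_rpow hp0 A
  have e2 := pilp_norm_rpow hp0 A'
  have e3 := pilp_norm_rpow hp0 (A - A')
  rw [h1] at e1
  rw [h2] at e2
  rw [h3] at e3
  have h2q : (2:ℝ) ^ p.toReal = 2 * 2 ^ (p.toReal - 1) := by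
    rw [Real.rpow_sub_one (by norm_num : (2:ℝ) ≠ 0)]; field_simp
  have hle : ∀ i ∈ (Finset.univ : Finset (Fin d)),
      |(A - A') i| ^ p.toReal ≤ 2 ^ (p.toReal - 1) * (|A i| ^ p.toReal + |A' i| ^ p.toReal) := by
    intro i _
    have := (midpoint_scalar hp (A i) (A' i)).1
    simpa using this
  have hsum : ∑ i, |(A - A') i| ^ p.toReal =
      ∑ i, 2 ^ (p.toReal - 1) * (|A i| ^ p.toReal + |A' i| ^ p.toReal) := by
    rw [← e3, ← Finset.mul_sum, Finset.sum_add_distrib, ← e1, ← e2,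
      Real.mul_rpow (by norm_num) hr, h2q]
    ring
  have hall := (Finset.sum_eq_sum_iff_of_le hle).1 hsum
  ext i
  have hi := hall i (Finset.mem_univ i)
  have := (midpoint_scalar hp (A i) (A' i)).2 (by simpa using hi)
  simpa using this

/-- V2: equality in Clarkson's inequality forces disjoint supports. -/
theorem pilp_disjoint_of_clarkson (hp : 1 < p.toReal) (hp2 : p.toReal ≠ 2)
    (A B : PiLp p (fun _ : Fin d => ℝ))
    (h : ‖A + B‖ ^ p.toReal + ‖A - B‖ ^ p.toReal = 2 * ‖A‖ ^ p.toReal + 2 * ‖B‖ ^ p.toReal) :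
    ∀ i, A i = 0 ∨ B i = 0 := by
  have hp0 : 0 < p.toReal := by linarith
  rw [pilp_norm_rpow hp0, pilp_norm_rpow hp0, pilp_norm_rpow hp0, pilp_norm_rpow hp0,
    Finset.mul_sum, Finset.mul_sum, ← Finset.sum_add_distrib, ← Finset.sum_add_distrib] at h
  rcases lt_or_gt_of_ne hp2 with hlt | hgt
  · have hle : ∀ i ∈ (Finset.univ : Finset (Fin d)),
        |(A + B) i| ^ p.toReal + |(A - B) i| ^ p.toReal ≤
          2 * |A i| ^ p.toReal + 2 * |B i| ^ p.toReal := by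
      intro i _
      have := (clarkson_lt hp0 hlt (A i) (B i)).1
      simpa using this
    have hall := (Finset.sum_eq_sum_iff_of_le hle).1 h
    intro i
    have hi := hall i (Finset.mem_univ i)
    exact (clarkson_lt hp0 hlt (A i) (B i)).2 (by simpa using hi.symm)
  · have hle : ∀ i ∈ (Finset.univ : Finset (Fin d)),
        2 * |A i| ^ p.toReal + 2 * |B i| ^ p.toReal ≤
          |(A + B) i| ^ p.toReal + |(A - B) i| ^ p.toReal := by
      intro i _
      have := (clarkson_gt hgt (A i) (B i)).1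
      simpa using this
    have hall := (Finset.sum_eq_sum_iff_of_le hle).1 h.symm
    intro i
    have hi := hall i (Finset.mem_univ i)
    exact (clarkson_gt hgt (A i) (B i)).2 (by simpa using hi)

/-- V3: disjointly supported vectors have additive `p`-th powers of norms. -/
theorem pilp_norm_sub_of_disjoint (hp : 0 < p.toReal) (A B : PiLp p (fun _ : Fin d => ℝ))
    (h : ∀ i, A i = 0 ∨ B i = 0) :
    ‖A - B‖ ^ p.toReal = ‖A‖ ^ p.toReal + ‖B‖ ^ p.toReal := by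
  rw [pilp_norm_rpow hp, pilp_norm_rpow hp, pilp_norm_rpow hp, ← Finset.sum_add_distrib]
  refine Finset.sum_congr rfl fun i _ => ?_
  rcases h i with h0 | h0
  · simp [h0, Real.zero_rpow hp.ne']
  · simp [h0, Real.zero_rpow hp.ne']

end vec


section core
variable {p : ℝ≥0∞} [Fact (1 ≤ p)] {d m : ℕ}

/-- The rigidity argument: a scaled-isometric image in `ℓ^p_d` of the configuration
`0, ±u j, ±w k` forces `m * m ≤ d`. -/
theorem core (hp : 1 < p.toReal) (hp2 : p.toReal ≠ 2)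
    {E : Type*} [NormedAddCommGroup E] [NormedSpace ℝ E]
    (u w : Fin m → E)
    (hu : ∀ j l, j ≠ l → ‖u j + u l‖ ^ p.toReal = ‖u j‖ ^ p.toReal + ‖u l‖ ^ p.toReal ∧
      ‖u j - u l‖ ^ p.toReal = ‖u j‖ ^ p.toReal + ‖u l‖ ^ p.toReal)
    (hw : ∀ j l, j ≠ l → ‖w j + w l‖ ^ p.toReal = ‖w j‖ ^ p.toReal + ‖w l‖ ^ p.toReal ∧
      ‖w j - w l‖ ^ p.toReal = ‖w j‖ ^ p.toReal + ‖w l‖ ^ p.toReal)
    (huw : ∀ j k, ‖u j - w k‖ ^ p.toReal ≠ ‖u j‖ ^ p.toReal + ‖w k‖ ^ p.toReal)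
    (Y : E → PiLp p (fun _ : Fin d => ℝ)) (s : ℝ) (hs : 0 < s)
    (S : Set E) (h0 : (0 : E) ∈ S) (hSu : ∀ j, u j ∈ S) (hSu' : ∀ j, -u j ∈ S)
    (hSw : ∀ k, w k ∈ S) (hSw' : ∀ k, -w k ∈ S)
    (hY : ∀ z ∈ S, ∀ z' ∈ S, ‖Y z - Y z'‖ = s * ‖z - z'‖) :
    m * m ≤ d := by
  have hp0 : 0 < p.toReal := by linarith
  -- normalise so that `0 ↦ 0`
  set Z : E → PiLp p (fun _ : Fin d => ℝ) := fun z => Y z - Y 0 with hZ
  have hZ2 : ∀ z ∈ S, ∀ z' ∈ S, ‖Z z - Z z'‖ = s * ‖z - z'‖ := by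
    intro z hz z' hz'
    simp only [hZ, sub_sub_sub_cancel_right]
    exact hY z hz z' hz'
  have hZ0 : Z 0 = 0 := by simp [hZ]
  have hZ1 : ∀ z ∈ S, ‖Z z‖ = s * ‖z‖ := by
    intro z hz
    have := hZ2 z hz 0 h0
    simpa [hZ0] using this
  -- reflection: the image of `-v` is minus the image of `v`
  have hneg : ∀ v : E, v ∈ S → -v ∈ S → Z (-v) = -Z v := by
    intro v hv hv'
    refine pilp_neg_of_norm hp (Z v) (Z (-v)) (s * ‖v‖) (hZ1 v hv) ?_ ?_
    · rw [hZ1 _ hv', norm_neg]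
    · rw [hZ2 v hv (-v) hv', sub_neg_eq_add, ← two_smul ℝ v, norm_smul, Real.norm_ofNat]
      ring
  -- generic disjointness statement for a family
  have hdisj : ∀ v : Fin m → E, (∀ j, v j ∈ S) → (∀ j, -v j ∈ S) →
      (∀ j l, j ≠ l → ‖v j + v l‖ ^ p.toReal = ‖v j‖ ^ p.toReal + ‖v l‖ ^ p.toReal ∧
        ‖v j - v l‖ ^ p.toReal = ‖v j‖ ^ p.toReal + ‖v l‖ ^ p.toReal) →
      ∀ j l, j ≠ l → ∀ i, Z (v j) i = 0 ∨ Z (v l) i = 0 := by
    intro v hv hv' hvv j l hjl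
    refine pilp_disjoint_of_clarkson hp hp2 (Z (v j)) (Z (v l)) ?_
    have e1 : ‖Z (v j) + Z (v l)‖ = s * ‖v j + v l‖ := by
      have := hZ2 (v j) (hv j) (-v l) (hv' l)
      rw [hneg (v l) (hv l) (hv' l), sub_neg_eq_add, sub_neg_eq_add] at this
      exact this
    have e2 : ‖Z (v j) - Z (v l)‖ = s * ‖v j - v l‖ := hZ2 _ (hv j) _ (hv l)
    rw [e1, e2, hZ1 _ (hv j), hZ1 _ (hv l), Real.mul_rpow hs.le (norm_nonneg _),
      Real.mul_rpow hs.le (norm_nonneg _), Real.mul_rpow hs.le (norm_nonneg _),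
      Real.mul_rpow hs.le (norm_nonneg _), (hvv j l hjl).1, (hvv j l hjl).2]
    ring
  have hA := hdisj u hSu hSu' hu
  have hB := hdisj w hSw hSw' hw
  -- the images of `u j` and `w k` share a coordinate
  have hex : ∀ j k, ∃ i, Z (u j) i ≠ 0 ∧ Z (w k) i ≠ 0 := by
    intro j k
    by_contra hcon
    have hcon' : ∀ i, Z (u j) i = 0 ∨ Z (w k) i = 0 := by
      intro i
      by_contra hi
      rw [not_or] at hi
      exact hcon ⟨i, hi.1, hi.2⟩
    have h3 := pilp_norm_sub_of_disjoint hp0 (Z (u j)) (Z (w k)) hcon'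
    rw [hZ2 _ (hSu j) _ (hSw k), hZ1 _ (hSu j), hZ1 _ (hSw k),
      Real.mul_rpow hs.le (norm_nonneg _), Real.mul_rpow hs.le (norm_nonneg _),
      Real.mul_rpow hs.le (norm_nonneg _), ← mul_add] at h3
    have hspos : 0 < s ^ p.toReal := Real.rpow_pos_of_pos hs _
    exact huw j k (mul_left_cancel₀ hspos.ne' h3)
  choose φ hφ using hex
  have hinj : Function.Injective (fun jk : Fin m × Fin m => φ jk.1 jk.2) := by
    rintro ⟨j, k⟩ ⟨j', k'⟩ h
    simp only at h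
    have hj : j = j' := by
      by_contra hne
      rcases hA j j' hne (φ j k) with h1 | h1
      · exact (hφ j k).1 h1
      · rw [h] at h1
        exact (hφ j' k').1 h1
    have hk : k = k' := by
      by_contra hne
      rcases hB k k' hne (φ j k) with h1 | h1
      · exact (hφ j k).2 h1
      · rw [h] at h1
        exact (hφ j' k').2 h1
    rw [hj, hk]
  have := Fintype.card_le_of_injective _ hinj
  simpa using this

end core


section lp
variable {p : ℝ≥0∞} [Fact (1 ≤ p)] {m : ℕ}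
set_option linter.unusedSectionVars false


/-- the element of `L^p(counting measure)` given by a function on the grid. -/
noncomputable def emb (p : ℝ≥0∞) (f : Fin m × Fin m → ℝ) :
    Lp ℝ p (Measure.count : Measure (Fin m × Fin m)) :=
  MemLp.toLp f MemLp.of_discrete

theorem emb_sub (f g : Fin m × Fin m → ℝ) : emb p (f - g) = emb p f - emb p g :=
  MemLp.toLp_sub _ _

theorem emb_add (f g : Fin m × Fin m → ℝ) : emb p (f + g) = emb p f + emb p g :=
  MemLp.toLp_add _ _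

theorem norm_emb_rpow (hp0 : 0 < p.toReal) (hptop : p ≠ ⊤) (f : Fin m × Fin m → ℝ) :
    ‖emb p f‖ ^ p.toReal = ∑ x, |f x| ^ p.toReal := by
  have hp0' : p ≠ 0 := by
    rintro rfl
    simp at hp0
  rw [emb, Lp.norm_toLp, eLpNorm_eq_lintegral_rpow_enorm_toReal hp0' hptop, lintegral_count,
    tsum_fintype]
  have h1 : ∀ x : Fin m × Fin m, ‖f x‖ₑ ^ p.toReal = ENNReal.ofReal (|f x| ^ p.toReal) := by
    intro x
    rw [← ENNReal.ofReal_rpow_of_nonneg (abs_nonneg _) hp0.le, ← Real.norm_eq_abs,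
      ofReal_norm]
  simp_rw [h1]
  rw [← ENNReal.ofReal_sum_of_nonneg (fun x _ => by positivity),
    ENNReal.ofReal_rpow_of_nonneg (Finset.sum_nonneg fun x _ => by positivity) (by positivity),
    ENNReal.toReal_ofReal (by positivity), ← Real.rpow_mul (Finset.sum_nonneg fun x _ => by positivity),
    one_div, inv_mul_cancel₀ hp0.ne', Real.rpow_one]

end lp


section grid
variable {p : ℝ≥0∞} [Fact (1 ≤ p)] {m : ℕ}

/-- indicator of row `j` of the grid. -/
def rowInd (j : Fin m) : Fin m × Fin m → ℝ := fun x => if x.1 = j then 1 else 0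

/-- indicator of column `k` of the grid. -/
def colInd (k : Fin m) : Fin m × Fin m → ℝ := fun x => if x.2 = k then 1 else 0

theorem norm_emb_disjoint (hp0 : 0 < p.toReal) (hptop : p ≠ ⊤) (f g : Fin m × Fin m → ℝ)
    (h : ∀ x, f x = 0 ∨ g x = 0) :
    ‖emb p f + emb p g‖ ^ p.toReal = ‖emb p f‖ ^ p.toReal + ‖emb p g‖ ^ p.toReal ∧
    ‖emb p f - emb p g‖ ^ p.toReal = ‖emb p f‖ ^ p.toReal + ‖emb p g‖ ^ p.toReal := by
  rw [← emb_add, ← emb_sub, norm_emb_rpow hp0 hptop, norm_emb_rpow hp0 hptop,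
    norm_emb_rpow hp0 hptop, norm_emb_rpow hp0 hptop, ← Finset.sum_add_distrib]
  constructor
  · refine Finset.sum_congr rfl fun x _ => ?_
    rcases h x with h0 | h0
    · simp [h0, Real.zero_rpow hp0.ne']
    · simp [h0, Real.zero_rpow hp0.ne']
  · refine Finset.sum_congr rfl fun x _ => ?_
    rcases h x with h0 | h0
    · simp [h0, Real.zero_rpow hp0.ne']
    · simp [h0, Real.zero_rpow hp0.ne']

theorem norm_emb_row_col (hp0 : 0 < p.toReal) (hptop : p ≠ ⊤) (j k : Fin m) :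
    ‖emb p (rowInd j) - emb p (colInd k)‖ ^ p.toReal ≠
      ‖emb p (rowInd j)‖ ^ p.toReal + ‖emb p (colInd k)‖ ^ p.toReal := by
  rw [← emb_sub, norm_emb_rpow hp0 hptop, norm_emb_rpow hp0 hptop,
    norm_emb_rpow hp0 hptop, ← Finset.sum_add_distrib]
  apply ne_of_lt
  apply Finset.sum_lt_sum
  · intro x _
    by_cases h1 : x.1 = j <;> by_cases h2 : x.2 = k <;>
      simp [rowInd, colInd, h1, h2, Real.zero_rpow hp0.ne']
  · refine ⟨(j, k), Finset.mem_univ _, ?_⟩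
    simp [rowInd, colInd, Real.zero_rpow hp0.ne']

end grid

end Crest.Agent.S0359
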